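import Vale.Agent.P047.TwoSided

open Finset Vale.Agent.P047

namespace Vale.Agent.Results.P047.OneSidedCertificate

/-- One of the two level sets `{f = s}` of `f` is a (weighted) exact union of certificates with at
most `k` determined coordinates: its indicator function is `∑ w_j 1_{A_j}` with `w_j ≥ 0`.
With all `w_j = 1` this says that `{f = s}` is a disjoint union of the sets `A_j`. -/
def OneSidedParity {n : ℕ} (f : Cube n → ℝ) (k : ℕ) : Prop :=
  ∃ (s : ℝ) (m : ℕ) (w : Fin m → ℝ) (A : Fin m → Cert n), (s = 1 ∨ s = -1) ∧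
    (∀ j, 0 ≤ w j ∧ (A j).codim ≤ k) ∧
    ∀ x, ∑ j, w j * (A j).ind x = if f x = s then 1 else 0

/-- The same with subcubes: `k` bounds the one-sided unambiguous certificate complexity, or more
generally the one-sided conical junta degree, of `f`. -/
def OneSidedSubcube {n : ℕ} (f : Cube n → ℝ) (k : ℕ) : Prop :=
  ∃ (s : ℝ) (m : ℕ) (w : Fin m → ℝ) (A : Fin m → Cert n), (s = 1 ∨ s = -1) ∧
    (∀ j, 0 ≤ w j ∧ (A j).codim ≤ k ∧ (A j).IsSubcube) ∧
    ∀ x, ∑ j, w j * (A j).ind x = if f x = s then 1 else 0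

lemma coef_level {n : ℕ} (f F : Cube n → ℝ) (s : ℝ) (hs : s = 1 ∨ s = -1)
    (hf : ∀ x, f x = 1 ∨ f x = -1) (hF : ∀ x, F x = if f x = s then 1 else 0) (i : Fin n) :
    |coef f i| = 2 * |coef F i| := by
  have h1 : ∀ x, f x * sgn (x i) = s * (2 * (F x * sgn (x i)) - sgn (x i)) := by
    intro x
    rw [hF x]
    rcases hs with rfl | rfl <;> rcases hf x with h | h <;> rw [h] <;> norm_num <;> ring
  have h2 : ∑ x : Cube n, sgn (x i) = 0 := by
    apply sum_eq_zero_of_flip i
    intro x; rw [flip_self]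
  have h3 : coef f i = s * (2 * coef F i) := by
    unfold coef
    rw [Finset.sum_congr rfl (fun x _ => h1 x), ← Finset.mul_sum, Finset.sum_sub_distrib, h2,
      ← Finset.mul_sum]
    ring
  rw [h3, abs_mul, abs_mul]
  rcases hs with rfl | rfl <;> norm_num

theorem result :
    (∀ (n k : ℕ) (f : Cube n → ℝ), (∀ x, f x = 1 ∨ f x = -1) → OneSidedSubcube f k →
      ∑ i, |coef f i| ≤ 2 * Real.sqrt (k / Real.exp 1)) ∧
    (∀ (n k : ℕ) (f : Cube n → ℝ), (∀ x, f x = 1 ∨ f x = -1) → OneSidedParity f k →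
      ∑ i, |coef f i| ≤ 2 * Real.sqrt (3 * k / Real.exp 1)) ∧
    (∀ (n k m : ℕ) (w : Fin m → ℝ) (A : Fin m → Cert n) (F : Cube n → ℝ),
      (∀ j, 0 ≤ w j ∧ (A j).codim ≤ k) → (∀ x, F x = ∑ j, w j * (A j).ind x) →
      (∀ x, F x ≤ 1) →
      ∑ i, |coef F i| ≤ mean F * Real.sqrt (6 * k * Real.log (1 / mean F)) ∧
      ((∀ j, (A j).IsSubcube) →
        ∑ i, |coef F i| ≤ mean F * Real.sqrt (2 * k * Real.log (1 / mean F)))) ∧
    (∀ (n m : ℕ) (w : Fin m → ℝ) (A : Fin m → Cert n) (f : Cube n → ℝ) (v : Fin m → ℝ),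
      (∀ j, 0 ≤ w j ∧ (A j).IsSubcube ∧ |v j| ≤ 1) → (∀ x, ∑ j, w j * (A j).ind x = 1) →
      (∀ j x, (A j).Holds x → f x = v j) →
      ∑ i, |coef f i| ≤ Real.sqrt (∑ j, w j / 2 ^ (A j).codim * (A j).codim)) := by
  refine ⟨?_, ?_, ?_, ?_⟩
  · rintro n k f hf ⟨s, m, w, A, hs, hA, hx⟩
    set F : Cube n → ℝ := fun x => if f x = s then 1 else 0 with hFdef
    have h := (two_bounds (k := k) (1/2) (by norm_num) w (fun j => (hA j).1) A
      (fun j => (hA j).2.1) F (fun x => by rw [hx x]) (fun x => by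
        simp only [hFdef]; split_ifs <;> norm_num)
      (fun h _ e he j => tiltP_subcube (A j) (hA j).2.2 h e he)).2
    rw [Finset.sum_congr rfl (fun i _ => coef_level f F s hs hf (fun x => rfl) i),
      ← Finset.mul_sum]
    refine mul_le_mul_of_nonneg_left (le_trans h (le_of_eq ?_)) (by norm_num)
    congr 1; ring
  · rintro n k f hf ⟨s, m, w, A, hs, hA, hx⟩
    set F : Cube n → ℝ := fun x => if f x = s then 1 else 0 with hFdef
    have h := (two_bounds (k := k) (3/2) (by norm_num) w (fun j => (hA j).1) A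
      (fun j => (hA j).2) F (fun x => by rw [hx x]) (fun x => by
        simp only [hFdef]; split_ifs <;> norm_num)
      (fun h hh e he j => tiltP_parity (A j) h hh e he)).2
    rw [Finset.sum_congr rfl (fun i _ => coef_level f F s hs hf (fun x => rfl) i),
      ← Finset.mul_sum]
    refine mul_le_mul_of_nonneg_left (le_trans h (le_of_eq ?_)) (by norm_num)
    congr 1; ring
  · intro n k m w A F hA hF hF1
    constructor
    · have h := (two_bounds (k := k) (3/2) (by norm_num) w (fun j => (hA j).1) A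
        (fun j => (hA j).2) F hF hF1
        (fun h hh e he j => tiltP_parity (A j) h hh e he)).1
      refine le_trans h (le_of_eq ?_)
      congr 2; ring
    · intro hsub
      have h := (two_bounds (k := k) (1/2) (by norm_num) w (fun j => (hA j).1) A
        (fun j => (hA j).2) F hF hF1
        (fun h _ e he j => tiltP_subcube (A j) (hsub j) h e he)).1
      refine le_trans h (le_of_eq ?_)
      congr 2; ring
  · intro n m w A f v h1 h2 h3
    exact two_sided w v (fun j => (h1 j).1) (fun j => (h1 j).2.2) A (fun j => (h1 j).2.1) f h2 h3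

end Vale.Agent.Results.P047.OneSidedCertificate
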